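import Vale.Agent.P183KG.Defs

/-!
Towers of finite simple groups that are not on the list of the classification.
-/

namespace Vale.Agent.N183

open Vale.Agent.P183KG

/-- `S` is a finite nonabelian simple group that is not listed. -/
def Unlisted (d c : ℕ) (S : Type) [Group S] : Prop :=
  Finite S ∧ IsSimpleGroup S ∧ (∃ a b : S, a * b ≠ b * a) ∧ ¬ Listed d c S

/-- `S'` is a section of a proper subgroup of `S`, or a section of the outer automorphism group of
`S` (a homomorphic image of a group `A` of automorphisms of `S`, under a homomorphism that is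
trivial on the inner automorphisms in `A`). -/
def Below (S' S : Type) [Group S'] [Group S] : Prop :=
  (∃ A : Subgroup S, A ≠ ⊤ ∧ IsSection S' A) ∨
    ∃ (A : Subgroup (MulAut S)) (f : A →* S'), Function.Surjective f ∧
      ∀ a : A, (∃ s : S, a.1 = MulAut.conj s) → f a = 1

/-- `S = S_k` is the top of a tower `S_0, ..., S_k` of unlisted simple groups, each `S_i` being below
`S_(i+1)`. -/
def Tower (d c : ℕ) : ℕ → ∀ (S : Type) [Group S], Prop
  | 0, S, _ => Unlisted d c S
  | k + 1, S, _ => Unlisted d c S ∧ ∃ (S' : Type) (_ : Group S'), Below S' S ∧ Tower d c k S'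

/-- Some section of `G` is the top of a tower of height `k`. -/
def HasTower (d c k : ℕ) (G : Type) [Group G] : Prop :=
  ∃ (S : Type) (_ : Group S), IsSection S G ∧ Tower d c k S

end Vale.Agent.N183
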