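import Vale.Agent.N183.Defs
import Vale.Agent.P183KG.Bridge
import Mathlib.Data.Sum.Lattice

/-!
A lattice that forces a tower of unlisted simple groups of given height.
-/

namespace Vale.Agent.N183

open Vale.Agent.P183 Vale.Agent.P183A Vale.Agent.P183B Vale.Agent.P183NK Vale.Agent.P183LT
  Vale.Agent.P183PK Subgroup

/-- Hairs on a given core. -/
theorem hair (C : Type) [Lattice C] [BoundedOrder C] [Finite C] :
    ∃ (Λ : Type) (_ : Lattice Λ) (_ : BoundedOrder Λ) (_ : Finite Λ) (f : C → Λ),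
      (∀ x y, f x ≤ f y ↔ x ≤ y) ∧ f ⊤ = ⊤ ∧ (∀ w, f ⊥ ≤ w → ∃ c, f c = w) ∧
        Hairy ⊥ (f ⊥) ⊤ := by
  have := finite_withBot (X := C)
  let _ : Lattice (Ins (DC C) Bool) := toLattice _
    (Ins.hasSup (hasSup_of_lattice _) (hasSup_of_lattice Bool).q)
    (Ins.hasInf (hasInf_of_lattice _) (hasInf_of_lattice Bool).q)
  let f : C → Ins (DC C) Bool := fun y => Ins.base (y : WithBot C)
  have hc : ∀ w, f ⊥ ≤ w → ∃ c, f c = w := fun w hw => by
    cases w with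
    | base c =>
      obtain ⟨y, rfl, -⟩ := WithBot.coe_le_iff.1 (Ins.base_le_base.1 hw)
      exact ⟨y, rfl⟩
    | new j x => exact absurd (Ins.base_le_new.1 hw) (WithBot.not_coe_le_bot _)
  let S : Sub (Ins (DC C) Bool) (Ins (DC C) Bool) ⊤ :=
    ⟨id, fun _ _ => Iff.rfl, rfl, rfl, fun _ _ _ w _ _ => ⟨w, rfl⟩⟩
  refine ⟨Ins (DC C) Bool, _, inferInstance, inferInstance, f,
    fun x y => Ins.base_le_base.trans WithBot.coe_le_coe, rfl, hc, bot_le, fun y hy _ => ?_⟩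
  obtain ⟨y, rfl⟩ := hc y hy
  refine ⟨noMod_of_chains S (j := (y, false)) (j' := (y, true)) (by simp) rfl rfl,
    Ins.new (y, false) true, bot_lt_iff_ne_bot.2 (new_ne_bot _ _), ?_, fun u hu _ => ?_⟩
  · exact lt_of_le_of_ne (Ins.new_le_base.2 le_rfl) fun e => by cases e
  · rcases Ins.new_le.1 hu with ⟨s, rfl, -⟩ | hs
    · exact Or.inl (Ins.new_le_base.2 le_rfl)
    · exact Or.inr hs

/-- A hairy iterated horizontal sum with a given lattice as a proper interval. -/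
theorem latticeK (m k : ℕ) (hm : 0 < m) (K : Type) [Lattice K] [BoundedOrder K] [Finite K] :
    ∃ (Λ : Type) (_ : Lattice Λ) (_ : BoundedOrder Λ) (_ : Finite Λ) (a : Λ) (g : K → Λ),
      Hairy ⊥ a ⊤ ∧ P183NK.Good m k a ⊤ ∧ (∀ x y, g x ≤ g y ↔ x ≤ y) ∧ g ⊤ ≠ ⊤ ∧
        ∀ w, g ⊥ ≤ w → w ≤ g ⊤ → ∃ x, g x = w := by
  obtain ⟨C, _, _, _, h⟩ := exists_core hm k
  have : Finite (K ⊕ₗ C) := inferInstanceAs (Finite (K ⊕ C))
  obtain ⟨Λ, _, _, _, f, hf, ht, hc, hH⟩ := hair (K ⊕ₗ C)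
  have hb : ∀ x, f ⊥ ≤ f x := fun x => (hf _ _).2 bot_le
  refine ⟨Λ, inferInstance, inferInstance, inferInstance, f (toLex (Sum.inr ⊥)),
    fun x => f (toLex (Sum.inl x)), hairy_mono hH (hb _) le_rfl, ?_,
    fun x y => (hf _ _).trans Sum.Lex.inl_le_inl_iff, fun e => ?_, fun w h1 h2 => ?_⟩
  · have := good_map (fun x : C => f (toLex (Sum.inr x)))
      (fun x y => (hf _ _).trans Sum.Lex.inr_le_inr_iff) k ⊥ ⊤ (fun w h1 _ => ?_) h
    · rwa [Sum.Lex.inr_top, ht] at this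
    obtain ⟨c, rfl⟩ := hc w ((hb _).trans h1)
    rcases c with c | c
    · exact absurd ((hf _ _).1 h1) Sum.Lex.not_inr_le_inl
    · exact ⟨c, rfl⟩
  · have h1 : f (toLex (Sum.inr ⊥)) ≤ f (toLex (Sum.inl ⊤)) := le_top.trans e.ge
    exact absurd ((hf _ _).1 h1) Sum.Lex.not_inr_le_inl
  · obtain ⟨c, rfl⟩ := hc w ((hb _).trans h1)
    rcases c with c | c
    · exact ⟨c, rfl⟩
    · exact absurd ((hf _ _).1 h2) Sum.Lex.not_inr_le_inl

theorem gik_of_emb {Φ : Fam} {K G : Type} [Lattice K] [Group G] [Finite G] {X Y : Subgroup G}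
    (E : Emb K (Set.Icc X Y)) (hXY : X ≤ Y) (hY : KGrp Φ Y) : GIK Φ K :=
  ⟨Y, inferInstance, inferInstance, X.subgroupOf Y, hY, ⟨(E.sub hXY).iso⟩⟩

section
variable {G : Type} [Group G] (T : Subgroup G) [T.Normal] (hc : centralizer (T : Set G) = ⊥)
include hc

theorem conj_inj : Function.Injective (MulAut.conjNormal (H := T)) := by
  refine (injective_iff_map_eq_one _).2 fun g hg => ?_
  rw [← mem_bot, ← hc]
  intro t ht
  have h1 : ((MulAut.conjNormal g (⟨t, ht⟩ : T) : T) : G) = t :=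
    congrArg Subtype.val (DFunLike.congr_fun hg ⟨t, ht⟩)
  rw [MulAut.conjNormal_apply] at h1
  exact (mul_inv_eq_iff_eq_mul.1 h1).symm

theorem below_out {S : Type} [Group S] (A : Subgroup G) (π : A →* S) (hπ : Function.Surjective π)
    (h : ∀ a : A, a.1 ∈ T → π a = 1) : Below S T := by
  have hi := conj_inj T hc
  let e := A.equivMapOfInjective _ hi
  refine Or.inr ⟨A.map (MulAut.conjNormal (H := T)), π.comp e.symm.toMonoidHom,
    hπ.comp e.symm.surjective, fun a ⟨s, hs⟩ => ?_⟩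
  obtain ⟨a, rfl⟩ := e.surjective a
  have h1 : MulAut.conjNormal (H := T) a.1 = MulAut.conjNormal (H := T) s.1 := by
    refine Eq.trans hs ?_
    ext t
    simp
  change π (e.symm (e a)) = 1
  rw [e.symm_apply_apply]
  exact h a (by rw [hi h1]; exact s.2)

theorem below_of {S : Type} [Group S] (hS : IsSimpleGroup S) (A : Subgroup G) (π : A →* S)
    (hπ : Function.Surjective π) (h : ¬ T ≤ A) : Below S T := by
  have hN : ((T.subgroupOf A).map π).Normal := (inferInstance : (T.subgroupOf A).Normal).map π hπ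
  rcases hN.eq_bot_or_eq_top with e | e
  · exact below_out T hc A π hπ fun a ha => (Subgroup.map_eq_bot_iff _).1 e ha
  · refine Or.inl ⟨A.subgroupOf T, fun e' => h (subgroupOf_eq_top.1 e'), ⊤,
      (π.comp ((T.subtype.comp (A.subgroupOf T).subtype).codRestrict A fun x => x.2)).comp
        (⊤ : Subgroup (A.subgroupOf T)).subtype, fun s => ?_⟩
    have : s ∈ (T.subgroupOf A).map π := by rw [e]; trivial
    obtain ⟨a, ha, rfl⟩ := this
    exact ⟨⟨⟨⟨a.1, ha⟩, a.2⟩, trivial⟩, rfl⟩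

end

theorem Tower.unl {d c k : ℕ} {S : Type} [Group S] (h : Tower d c k S) : Unlisted d c S := by
  cases k with
  | zero => exact h
  | succ k => exact h.1

/-- A tree of unlisted socles in an almost simple region gives a tower. -/
theorem tower_of_mt {d c : ℕ} {G : Type} [Group G] [Finite G] {H T x : Subgroup G}
    (hr : Reg H T x ⊤) {m : ℕ} (hm : 0 < m) (j : ℕ) : ∀ a b, x ≤ a →
    MT m (fun _ z => ¬ P183KG.Listed d c (EE H z)) (j + 1) a b →
      ∃ z, x ≤ z ∧ z < b ∧ Tower d c j (EE H z) := by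
  have hu : ∀ z, x ≤ z → ¬ P183KG.Listed d c (EE H z) → Unlisted d c (EE H z) := fun z hz h =>
    ⟨inferInstance, (hr.2.2.2 z hz le_top).1, (ns_of_not_cm (hr.2.2.2 z hz le_top).1
      (EE_not_cm (hr.1.nomod hz le_top))).nab, h⟩
  induction j with
  | zero =>
    rintro a b ha ⟨a', b', col, z, u, h1, -, h3, -, h4⟩
    obtain ⟨-, g1, g2, g3, g4⟩ := h4 ⟨0, hm⟩
    have hz := ((ha.trans h1).trans g1).trans (mt_lt g3).le
    exact ⟨_, hz, (mt_lt g4).trans_le h3, hu _ hz g2⟩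
  | succ j ih =>
    rintro a b ha ⟨a', b', col, z, u, h1, -, h3, -, h4⟩
    obtain ⟨-, g1, g2, g3, g4⟩ := h4 ⟨0, hm⟩
    have hz := ((ha.trans h1).trans g1).trans (mt_lt g3).le
    obtain ⟨y, e1, e2, e3⟩ := ih _ _ ((ha.trans h1).trans g1) g3
    have n1 := hr.1.nomod e1 le_top
    have n2 := hr.1.nomod hz le_top
    have hle := P183NK.EE_mono n1 n2 e2.le
    refine ⟨_, hz, (mt_lt g4).trans_le h3, hu _ hz g2, EE H y, inferInstance,
      Or.inl ⟨(EE H y).subgroupOf (EE H (z ⟨0, hm⟩)), fun e => ?_, ⊤,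
        (subgroupOfEquivOfLe hle).toMonoidHom.comp (⊤ : Subgroup _).subtype, fun s => ?_⟩, e3⟩
    · exact e2.ne (eq_of_EE_eq n1 n2 (le_antisymm hle (subgroupOf_eq_top.1 e)))
    · exact ⟨⟨(subgroupOfEquivOfLe hle).symm s, trivial⟩, by simp⟩

/-- The inductive step. -/
theorem not_asik_step {r : ℕ} (Φ : Fin r → Fam) (hΦ : ∀ i, BlockW (Φ i)) (n d c₀ k₀ : ℕ)
    (hP : ∀ (S : Type) [Group S], IsSimpleGroup S → P183KG.Listed d c₀ S →
      Nat.card S ≤ n ∨ ∃ i, Φ i S)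
    (K₀ : Type) [Lattice K₀] [BoundedOrder K₀] [Finite K₀]
    (hK₀ : ¬ GIK (fun S _ => ¬ Tower d c₀ k₀ S) K₀) :
    ∃ (Λ : Type) (_ : Lattice Λ) (_ : Finite Λ) (_ : Nonempty Λ),
      ¬ ASIK (fun S _ => ¬ Tower d c₀ (k₀ + 1) S) Λ := by
  choose Gen m₀ c m j hm hW hF using fun i => (hΦ i).2
  choose B hB using fun i => (hΦ i).1
  obtain ⟨cs, hcs⟩ := smallTop n
  set m' := ∑ i, (m i + m₀ i) + 1 with hm'
  set c' := ∑ i, c i + cs with hc'
  set M := (r + 1) * m' + 1 with hM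
  let j' : Fin (r + 1) → ℕ := Fin.cons (k₀ + 1 + 1) j
  set K := (∑ i, j' i + 1) * (c' + 0 + 1) with hK
  have hmi : ∀ i, m i + m₀ i ≤ m' := fun i =>
    (Finset.single_le_sum (f := fun i => m i + m₀ i) (fun _ _ => Nat.zero_le _)
      (Finset.mem_univ i)).trans (Nat.le_succ _)
  have hMi : ∀ i, m₀ i ≤ M := fun i => by
    have := hmi i
    have : m' ≤ (r + 1) * m' := Nat.le_mul_of_pos_left m' (Nat.succ_pos r)
    omega
  have hci : ∀ i, c i ≤ c' := fun i =>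
    (Finset.single_le_sum (f := c) (fun _ _ => Nat.zero_le _) (Finset.mem_univ i)).trans
      (Nat.le_add_right _ _)
  have hM0 : 0 < M := Nat.succ_pos _
  obtain ⟨Λ, _, _, _, a, g, hH, hG, hg, hgt, hgs⟩ :=
    latticeK M (K + c' + (n.factorial + ∑ i, B i)) hM0 K₀
  refine ⟨Λ, inferInstance, inferInstance, ⟨a⟩, ?_⟩
  rintro ⟨G, _, _, T, H, _, hK, hT, hnab, hc, hcase, ⟨e⟩⟩
  have hK : KGrp (fun S _ => ¬ Tower d c₀ (k₀ + 1) S) G := hK
  let f : Λ → Subgroup G := fun x => (e x).1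
  have hf : ∀ x y, f x ≤ f y ↔ x ≤ y := fun x y => e.le_iff_le
  have hsurj : ∀ w, H ≤ w → ∃ x, f x = w := fun w hw =>
    ⟨e.symm ⟨w, hw⟩, congrArg Subtype.val (e.apply_symm_apply _)⟩
  have hbot : f ⊥ = H := by
    obtain ⟨x, hx⟩ := hsurj H le_rfl
    exact le_antisymm (hx ▸ (hf _ _).2 bot_le) (e ⊥).2
  have htop : f ⊤ = ⊤ := by
    obtain ⟨x, hx⟩ := hsurj ⊤ le_top
    exact top_le_iff.1 (hx ▸ (hf _ _).2 le_top)
  have hH' : Hairy H (f a) ⊤ := by
    have := hairy_map f hf (fun w h _ => hsurj w (hbot ▸ h)) hH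
    rwa [hbot, htop] at this
  have hG' : P183NK.Good M (K + c' + (n.factorial + ∑ i, B i)) (f a) ⊤ := by
    have := good_map f hf _ a ⊤ (fun w h _ => hsurj w ((e a).2.trans h)) hG
    rwa [htop] at this
  have hTn : NS T := ⟨hT, by
    obtain ⟨x, hx, y, hy, h⟩ := hnab
    exact ⟨⟨x, hx⟩, ⟨y, hy⟩, fun e => h (congrArg Subtype.val e)⟩⟩
  by_cases hL : P183KG.Listed d c₀ T
  swap
  · -- the socle is not listed
    have hU : Unlisted d c₀ T := ⟨inferInstance, hT, hTn.nab, hL⟩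
    have hB : ∀ (S : Type) [Group S], Below S T → ¬ Tower d c₀ k₀ S := fun S _ h1 h2 =>
      (hK.sub T).self hTn ⟨hU, S, inferInstance, h1, h2⟩
    have hXY : f (g ⊥) ≤ f (g ⊤) := (hf _ _).2 ((hg _ _).2 bot_le)
    let E : Emb K₀ (Set.Icc (f (g ⊥)) (f (g ⊤))) :=
      ⟨fun x => f (g x), fun x y => (hf _ _).trans (hg _ _), fun W => ⟨by
        rintro ⟨x, rfl⟩
        exact ⟨(hf _ _).2 ((hg _ _).2 bot_le), (hf _ _).2 ((hg _ _).2 le_top)⟩, fun hW => by
        obtain ⟨w, rfl⟩ := hsurj W ((e _).2.trans hW.1)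
        obtain ⟨x, rfl⟩ := hgs w ((hf _ _).1 hW.1) ((hf _ _).1 hW.2)
        exact ⟨x, rfl⟩⟩⟩
    rcases hcase with hsup | ⟨hTH, -⟩
    · refine hK₀ (gik_of_emb E hXY fun S _ hs _ ⟨A, π, hπ⟩ => hB S ?_)
      let ε := A.equivMapOfInjective _ (f (g ⊤)).subtype_injective
      refine below_of T hc hs (A.map (f (g ⊤)).subtype) (π.comp ε.symm.toMonoidHom)
        (hπ.comp ε.symm.surjective) fun h => hgt (top_le_iff.1 ((hf _ _).1 ?_))
      rw [htop, ← hsup]
      exact sup_le (e _).2 (h.trans (map_subtype_le _))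
    · have hQ : KGrp (fun S _ => ¬ Tower d c₀ k₀ S) (G ⧸ T) := fun S _ _ _ ⟨A, π, hπ⟩ => by
        refine hB S (below_out T hc (A.comap (QuotientGroup.mk' T))
          (π.comp ((QuotientGroup.mk' T).subgroupComap A)) (hπ.comp ?_) fun a ha => ?_)
        · rintro ⟨a, ha⟩
          obtain ⟨g, rfl⟩ := QuotientGroup.mk'_surjective T a
          exact ⟨⟨g, ha⟩, rfl⟩
        · have : (QuotientGroup.mk' T).subgroupComap A a = 1 :=
            Subtype.ext ((QuotientGroup.eq_one_iff _).2 ha)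
          rw [MonoidHom.comp_apply, this, map_one]
      exact hK₀ (gik_of_emb (E.map hXY (QuotientGroup.mk' T) fun y _ hy =>
        (e _).2 (hTH ((QuotientGroup.eq_one_iff _).1 hy))) (map_mono hXY) (hQ.sub _))
  -- the step
  have step : ∀ (a z : Subgroup G) (k : ℕ), Hairy H a z → P183NK.Good M (k + c') a z →
      IsSimpleGroup (EE H z) → P183KG.Listed d c₀ (EE H z) →
      ∃ i a', a ≤ a' ∧ P183NK.Good M k a' z ∧ Φ i (EE H z) ∧ Gen i G H a' z ∧
        AS H (EE H z) a' := fun a z k hh hg hs hl => by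
    rcases hP _ hs hl with h | ⟨i, h⟩
    · exact absurd (hg.of_le (k' := 0 + cs) (by omega)) (hcs G H a z M 0 hM0 hh hs h)
    · obtain ⟨a', h1, h2, h3, h4⟩ := hW i G H a z M k (hMi i) hh
        (hg.of_le (by have := hci i; omega)) hs h
      exact ⟨i, a', h1, h2, h, h3, h4⟩
  rcases hcase with hsup | ⟨hTH, -⟩
  · have hn := hH'.nomod le_top le_rfl
    have hle : EE H ⊤ ≤ T := EE_le_of le_top (Nm.of_normal _ _) fun c =>
      hn.lt.ne (by rw [← hsup, sup_eq_left.2 c])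
    have hE : EE H ⊤ = T := by
      have hN : ((EE H ⊤).subgroupOf T).Normal := ⟨fun x hx g => nm_EE H ⊤ g trivial x hx⟩
      rcases hN.eq_bot_or_eq_top with e | e
      · refine absurd (le_bot_iff.1 fun x hx => ?_) (EE_ne_bot hn)
        have : (⟨x, hle hx⟩ : T) ∈ (EE H ⊤).subgroupOf T := hx
        rw [e, mem_bot] at this
        exact congrArg Subtype.val this
      · exact le_antisymm hle (subgroupOf_eq_top.1 e)
    obtain ⟨-, x, h1, h2, -, -, h4⟩ :=
      step (f a) ⊤ K hH' (hG'.of_le (by omega)) (hE ▸ hT) (hE ▸ hL)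
    have hreg := keyUp G H _ x ⊤ (hH'.up h1) le_rfl (nm_EE H ⊤) h4
    let Q : Fin (r + 1) → Subgroup G → Subgroup G → Prop :=
      Fin.cons (fun _ z => ¬ P183KG.Listed d c₀ (EE H z)) fun i u z => Φ i (EE H z) ∧ Gen i G H u z
    have hmt := toMT_aux (C := fun _ => False) (j := 0) (c := c') (m := M)
      (P := fun u z => ∃ i, Q i u z) (x := x) (b := ⊤)
      (fun a z k ha _ hg => by
        by_cases hl : P183KG.Listed d c₀ (EE H z)
        · obtain ⟨i, a', g1, g2, g3, g4, -⟩ := step a z k (hreg.1.mono ha le_top) hg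
            (hreg.2.2.2 z (ha.trans hg.lt.le) le_top).1 hl
          exact Or.inr ⟨a', g1, g2, i.succ, g3, g4⟩
        · exact Or.inr ⟨a, le_rfl, hg.of_le (Nat.le_add_right _ _), 0, hl⟩)
      (fun ⟨_, _, _, _, h, _⟩ => h) _ x ⊤ le_rfl le_rfl h2
    obtain ⟨i, hi⟩ := ramsey_aux (Nat.succ_pos _) _ _ j' le_rfl x ⊤ hmt
    induction i using Fin.cases with
    | zero =>
      obtain ⟨z, -, -, hz⟩ := tower_of_mt hreg (Nat.succ_pos _) (k₀ + 1) x ⊤ le_rfl hi
      exact (hK.sub _).self ⟨hz.unl.2.1, hz.unl.2.2.1⟩ hz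
    | succ i =>
      exact hF i G H _ x ⊤ hreg (hi.mono_m (hm i) ((Nat.le_add_right _ _).trans (hmi i)))
  · rcases hP _ hT hL with h | ⟨i, h⟩
    · have h1 := hG'.card_le hM0
      have h2 := (card_le_fact T hc).trans (Nat.factorial_le h)
      have h3 : 0 < Nat.card (f a) := Nat.card_pos
      have h4 := Nat.lt_two_pow_self (n := K + c' + (n.factorial + ∑ i, B i) + 1)
      rw [card_top] at h1
      have := Nat.le_mul_of_pos_right (2 ^ (K + c' + (n.factorial + ∑ i, B i) + 1)) h3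
      omega
    · obtain ⟨R, hR, hi, l, hl⟩ := hB i G T hT hc h
      have hn := hH'.nomod le_top le_rfl
      have hRH : R ≤ H := (le_or_EE_le hn le_top (Nm.of_normal _ _)).resolve_right fun c =>
        EE_nle hn fun g hg => hTH (hl ⟨g, c hg⟩
          ((le_derivedSeries (EE_perfect hn) l).resolve_right (not_not.2 c) hg))
      have h1 := hG'.card_le hM0
      have h2 := card_le_of_le (hRH.trans hH'.le)
      have h3 : 0 < Nat.card R := Nat.card_pos
      have h4 := Nat.lt_two_pow_self (n := K + c' + (n.factorial + ∑ i, B i) + 1)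
      have h5 := Finset.single_le_sum (f := B) (fun _ _ => Nat.zero_le _) (Finset.mem_univ i)
      rw [card_top, ← R.index_mul_card] at h1
      have := Nat.le_of_mul_le_mul_right ((Nat.mul_le_mul_left _ h2).trans h1) h3
      omega

/-- The listed groups are small or lie in one of finitely many families with blocks. -/
theorem blocks : ∃ d : ℕ, ∀ c : ℕ, ∃ (r : ℕ) (Φ : Fin r → Fam) (n : ℕ), (∀ i, BlockW (Φ i)) ∧
    ∀ (S : Type) [Group S], IsSimpleGroup S → P183KG.Listed d c S →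
      Nat.card S ≤ n ∨ ∃ i, Φ i S := by
  obtain ⟨d, hC⟩ := P183W3.blockCl_of_same P183W5.w5' P183F.sameChar
  obtain ⟨n₁, hA⟩ := P183AL.blockAlt
  refine ⟨d, fun c => ?_⟩
  obtain ⟨c', n₂, h3⟩ :=
    P183CH.chev_unif P183CH.ch1m (P183BD.absLie P183CH3.ch3t P183CH4.ch4t) c
  choose n₀ hL using P183BD.blockLie2
  refine ⟨c' + 1 + 1 + 1, Fin.cons (α := fun _ => Fam) (fun S _ => IsAlt S ∧ n₁ < Nat.card S)
      (Fin.cons (α := fun _ => Fam) (fun S _ => IsClassical d S)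
        fun i S _ => P183BD.IsLie2 i S ∧ n₀ i < Nat.card S),
    c + n₁ + n₂ + ∑ i : Fin (c' + 1), n₀ i, Fin.forall_fin_succ.2 ⟨by exact hA.weak,
      Fin.forall_fin_succ.2 ⟨by exact hC.weak, fun i => by exact hL i⟩⟩, fun S _ g1 hS => ?_⟩
  by_cases hs : Nat.card S ≤ c + n₁ + n₂ + ∑ i : Fin (c' + 1), n₀ i
  · exact Or.inl hs
  rcases hS.old with h | h | h | h
  · omega
  · exact Or.inr ⟨0, h, by omega⟩
  · exact Or.inr ⟨Fin.succ 0, h⟩
  · obtain ⟨i, hi, h4⟩ := h3 S g1 h (by omega)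
    have := Finset.single_le_sum (f := fun i : Fin (c' + 1) => n₀ i) (fun _ _ => Nat.zero_le _)
      (Finset.mem_univ ⟨i, Nat.lt_succ_of_le hi⟩)
    exact Or.inr ⟨Fin.succ (Fin.succ ⟨i, Nat.lt_succ_of_le hi⟩), h4, lt_of_le_of_lt this (by omega)⟩

theorem exists_lattice : ∃ d : ℕ, ∀ c k : ℕ,
    ∃ (K : Type) (_ : Lattice K) (_ : BoundedOrder K) (_ : Finite K),
      NoMod (⊥ : K) ⊤ ∧ ¬ GIK (fun S _ => ¬ Tower d c k S) K := by
  obtain ⟨d, h⟩ := blocks
  refine ⟨d, fun c k => ?_⟩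
  obtain ⟨r, Φ, n, hΦ, hP⟩ := h c
  induction k with
  | zero =>
    obtain ⟨Λ, _, _, _, hΛ⟩ := not_asik Φ hΦ n
    obtain ⟨K, _, _, _, hK, h⟩ := track Λ
    refine ⟨K, inferInstance, inferInstance, inferInstance, hK, fun ⟨G, _, _, H, hG, e⟩ =>
      hΛ (h _ ⟨G, inferInstance, inferInstance, H, fun S _ g1 g2 g3 => hP S g1 ?_, e⟩)⟩
    obtain ⟨A, π, hπ⟩ := g3
    by_contra hl
    exact hG S g1 g2 ⟨A, π, hπ⟩ ⟨Finite.of_surjective π hπ, g1, g2, hl⟩
  | succ k ih =>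
    obtain ⟨K₀, _, _, _, -, hK₀⟩ := ih
    obtain ⟨Λ, _, _, _, hΛ⟩ := not_asik_step Φ hΦ n d c k hP K₀ hK₀
    obtain ⟨K, _, _, _, hK, h⟩ := track Λ
    exact ⟨K, inferInstance, inferInstance, inferInstance, hK, fun g => hΛ (h _ g)⟩

theorem main : ∃ d : ℕ, ∀ c k : ℕ, ∃ (L : Type) (_ : Lattice L) (_ : Finite L) (_ : Nonempty L),
    (∀ (G : Type) [Group G] [Finite G] (H : Subgroup G),
      Nonempty (L ≃o {K : Subgroup G // H ≤ K}) → HasTower d c k G) ∧
    (∀ A : FiniteAlgebra, Nonempty (L ≃o A.Con) →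
      ∃ (G : Type) (_ : Group G), PolGroup A G ∧ HasTower d c k G) ∧
    ((∀ (S : Type) [Group S], ¬ Tower d c k S) → ¬ Representable L) := by
  obtain ⟨d, h⟩ := exists_lattice
  refine ⟨d, fun c k => ?_⟩
  obtain ⟨K, _, _, _, h1, h2⟩ := h c k
  obtain ⟨L, i1, i2, i3, g1, g2, g3⟩ := three h1 h2
  refine ⟨L, i1, i2, i3, fun G _ _ H ⟨e⟩ => ?_, fun A ⟨e⟩ => ?_, fun h => g3 fun S _ _ _ _ => h S⟩
  · by_contra hn
    exact (g1 G H fun S _ _ _ hs ht => hn ⟨S, inferInstance, hs, ht⟩).false e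
  · by_contra hn
    exact (g2 A fun G _ hG S _ _ _ hs ht => hn ⟨G, inferInstance, hG, S, inferInstance, hs, ht⟩).false e

end Vale.Agent.N183
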